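import Vale.Agent.P359.Kernel.Op

/-!
# P359: `‖H ψ‖²` split by the overlap of the two pairs
-/

noncomputable section

open Function Equiv

namespace Vale.Agent.P359.Kernel

open Upper

variable {m Q : ℕ}

/-- `⟨P_ij ψ, P_kl ψ⟩`. -/
def cross (ψ : Orbs m Q → ℝ) (i j k l : Fin m) : ℝ :=
  ∑ y, pairProj i j ψ y * pairProj k l ψ y

/-- The two pairs share one particle: `∑ ⟨P_ij ψ, P_jk ψ⟩` over ordered distinct triples. -/
def three (ψ : Orbs m Q → ℝ) : ℝ :=
  ∑ i : Fin m, ∑ j : Fin m, ∑ k : Fin m,
    if i ≠ j ∧ k ≠ i ∧ k ≠ j then cross ψ i j j k else 0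

/-- The two pairs are disjoint: a quarter of the sum over ordered distinct quadruples. -/
def four (ψ : Orbs m Q → ℝ) : ℝ :=
  (∑ i : Fin m, ∑ j : Fin m, ∑ k : Fin m, ∑ l : Fin m,
    if i ≠ j ∧ k ≠ i ∧ k ≠ j ∧ l ≠ i ∧ l ≠ j ∧ k ≠ l then cross ψ i j k l else 0) / 4

lemma cross_comm (ψ : Orbs m Q → ℝ) (i j k l : Fin m) : cross ψ i j k l = cross ψ k l i j := by
  simp only [cross, mul_comm]

lemma cross_swap_left (ψ : Orbs m Q → ℝ) (i j k l : Fin m) : cross ψ j i k l = cross ψ i j k l := by
  simp only [cross, pairProj_swap ψ i j]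

lemma cross_swap_right (ψ : Orbs m Q → ℝ) (i j k l : Fin m) :
    cross ψ i j l k = cross ψ i j k l := by
  simp only [cross, pairProj_swap ψ k l]

lemma cross_self_left (ψ : Orbs m Q → ℝ) (i k l : Fin m) : cross ψ i i k l = 0 := by
  simp [cross, pairProj_self]

lemma cross_self_right (ψ : Orbs m Q → ℝ) (i j k : Fin m) : cross ψ i j k k = 0 := by
  simp [cross, pairProj_self]

lemma four_mul_normSq_ham (ψ : Orbs m Q → ℝ) :
    4 * normSq (ham ψ) = ∑ i, ∑ j, ∑ k, ∑ l, cross ψ i j k l := by
  calc 4 * normSq (ham ψ) = ∑ y, (2 * ham ψ y) * (2 * ham ψ y) := by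
        rw [normSq, Finset.mul_sum]
        exact Finset.sum_congr rfl fun y _ => by ring
    _ = ∑ y, ∑ i, ∑ j, ∑ k, ∑ l, pairProj i j ψ y * pairProj k l ψ y := by
        refine Finset.sum_congr rfl fun y _ => ?_
        rw [two_mul_ham, Finset.sum_mul]
        refine Finset.sum_congr rfl fun i _ => ?_
        rw [Finset.sum_mul]
        refine Finset.sum_congr rfl fun j _ => ?_
        rw [Finset.mul_sum]
        exact Finset.sum_congr rfl fun k _ => Finset.mul_sum _ _ _
    _ = _ := by
        rw [Finset.sum_comm]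
        refine Finset.sum_congr rfl fun i _ => ?_
        rw [Finset.sum_comm]
        refine Finset.sum_congr rfl fun j _ => ?_
        rw [Finset.sum_comm]
        refine Finset.sum_congr rfl fun k _ => ?_
        rw [Finset.sum_comm]
        rfl

/-- `P_ij` is a projection. -/
lemma pairProj_idem {i j : Fin m} (hij : i ≠ j) (ψ : Orbs m Q → ℝ) (y : Orbs m Q) :
    pairProj i j (pairProj i j ψ) y = pairProj i j ψ y := by
  refine Finset.sum_congr rfl fun s _ => ?_
  rcases eq_or_ne (pairNorm Q s) 0 with h0 | h0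
  · simp [h0]
  congr 2
  rw [amp]
  have e : ∀ k l : Fin (Q + 1),
      pairVec Q s k l * pairProj i j ψ (update (update y i k) j l)
        = amp ψ i j s y * (pairVec Q s k l ^ 2 / pairNorm Q s) := by
    intro k l
    by_cases hs : (k : ℕ) + l = s
    · have hmem : s ∈ Finset.range (2 * Q + 1) := by
        have := k.2; have := l.2
        rw [Finset.mem_range]; omega
      rw [pairProj, Finset.sum_eq_single_of_mem s hmem fun t _ hts => ?_,
        amp_update ψ hij, update_self, update_of_ne hij, update_self]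
      · ring
      · rw [update_self, update_of_ne hij, update_self]
        have : pairVec Q t k l = 0 := if_neg (hs ▸ hts.symm)
        simp [this]
    · simp [pairVec, hs]
  simp only [e, ← Finset.mul_sum, ← Finset.sum_div]
  rw [show ∑ k, ∑ l, pairVec Q s k l ^ 2 = pairNorm Q s from rfl, div_self h0, mul_one]

lemma cross_diag {i j : Fin m} (hij : i ≠ j) (ψ : Orbs m Q → ℝ) :
    cross ψ i j i j = ∑ y, ψ y * pairProj i j ψ y := by
  rw [cross, sum_mul_pairProj hij, Finset.sum_comm]
  conv_rhs => rw [← funext fun y => congrArg (ψ y * ·) (pairProj_idem hij ψ y)]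
  rw [sum_mul_pairProj hij]
  simp only [mul_comm (amp ψ i j _ _)]
  rw [Finset.sum_comm]

lemma two_mul_energy (ψ : Orbs m Q → ℝ) :
    2 * energy ψ = ∑ i, ∑ j, cross ψ i j i j := by
  calc 2 * energy ψ = ∑ y, ψ y * (2 * ham ψ y) := by
        rw [energy_eq_sum_mul_ham, Finset.mul_sum]
        exact Finset.sum_congr rfl fun y _ => by ring
    _ = ∑ i : Fin m, ∑ j : Fin m, ∑ y, ψ y * pairProj i j ψ y := by
        simp only [two_mul_ham, Finset.mul_sum]
        rw [Finset.sum_comm]
        exact Finset.sum_congr rfl fun i _ => Finset.sum_comm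
    _ = _ := by
        refine Finset.sum_congr rfl fun i _ => Finset.sum_congr rfl fun j _ => ?_
        rcases eq_or_ne i j with rfl | hij
        · simp [pairProj_self, cross_self_left]
        · exact (cross_diag hij ψ).symm

/-- **The expansion** of `‖H ψ‖²`. -/
theorem normSq_ham (ψ : Orbs m Q → ℝ) : normSq (ham ψ) = energy ψ + three ψ + four ψ := by
  set G := cross ψ with hG
  -- the sum over the second pair, for a fixed first pair
  have hrow : ∀ i j : Fin m, ∑ k, ∑ l, G i j k l = 2 * G i j i j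
      + ∑ k, (if i ≠ j ∧ k ≠ i ∧ k ≠ j then 2 * G i j j k + 2 * G j i i k else 0)
      + ∑ k, ∑ l, (if i ≠ j ∧ k ≠ i ∧ k ≠ j ∧ l ≠ i ∧ l ≠ j ∧ k ≠ l then G i j k l else 0) := by
    intro i j
    rcases eq_or_ne i j with rfl | hij
    · simp [hG, cross_self_left]
    have hsplit : ∀ F : Fin m → ℝ,
        ∑ k, F k = F i + F j + ∑ k, if k ≠ i ∧ k ≠ j then F k else 0 := fun F => by
      have : ∀ k, F k = (if k = i then F k else 0) + (if k = j then F k else 0)
          + (if k ≠ i ∧ k ≠ j then F k else 0) := fun k => by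
        by_cases h1 : k = i <;> by_cases h2 : k = j <;> simp_all
      rw [Finset.sum_congr rfl fun k _ => this k, Finset.sum_add_distrib, Finset.sum_add_distrib]
      simp
    rw [hsplit]
    rw [hsplit (G i j i), hsplit (G i j j)]
    have hk : ∀ k, (if k ≠ i ∧ k ≠ j then ∑ l, G i j k l else 0)
        = (if k ≠ i ∧ k ≠ j then G i j k i + G i j k j else 0)
          + ∑ l, (if i ≠ j ∧ k ≠ i ∧ k ≠ j ∧ l ≠ i ∧ l ≠ j ∧ k ≠ l then G i j k l else 0) := by
      intro k
      by_cases h : k ≠ i ∧ k ≠ j
      · rw [if_pos h, if_pos h, hsplit (G i j k)]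
        congr 1
        refine Finset.sum_congr rfl fun l _ => ?_
        by_cases hkl : k = l
        · subst hkl; simp [hG, cross_self_right]
        · simp [hij, h.1, h.2, hkl]
      · rw [if_neg h, if_neg h, zero_add]
        refine (Finset.sum_eq_zero fun l _ => if_neg fun hc => h ⟨hc.2.1, hc.2.2.1⟩).symm
    rw [Finset.sum_congr rfl fun k _ => hk k, Finset.sum_add_distrib]
    have h0i : G i j i i = 0 := cross_self_right ψ i j i
    have h0j : G i j j j = 0 := cross_self_right ψ i j j
    have hji : G i j j i = G i j i j := cross_swap_right ψ i j i j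
    have e1 : ∀ k, G i j i k = G j i i k := fun k => (cross_swap_left ψ i j i k).symm
    have e2 : ∀ k, G i j k i = G j i i k := fun k => by rw [← e1]; exact cross_swap_right ψ i j i k
    have e3 : ∀ k, G i j k j = G i j j k := fun k => cross_swap_right ψ i j j k
    rw [h0i, h0j, hji]
    simp only [e1, e2, e3, ne_eq, hij, not_false_eq_true, true_and,
      two_mul]
    have : ∀ k, (if ¬k = i ∧ ¬k = j then G i j j k + G i j j k + (G j i i k + G j i i k) else 0)
        = (if ¬k = i ∧ ¬k = j then G i j j k else 0) + (if ¬k = i ∧ ¬k = j then G i j j k else 0)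
          + ((if ¬k = i ∧ ¬k = j then G j i i k else 0)
            + (if ¬k = i ∧ ¬k = j then G j i i k else 0)) := fun k => by
      split_ifs <;> ring
    have this' : ∀ k, (if ¬k = i ∧ ¬k = j then G j i i k + G i j j k else 0)
        = (if ¬k = i ∧ ¬k = j then G j i i k else 0) + (if ¬k = i ∧ ¬k = j then G i j j k else 0) :=
      fun k => by split_ifs <;> ring
    simp only [this, this', Finset.sum_add_distrib]
    ring
  have h4 : 4 * normSq (ham ψ) = 4 * (energy ψ + three ψ + four ψ) := by
    rw [four_mul_normSq_ham]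
    simp only [hG] at hrow
    simp only [hrow, Finset.sum_add_distrib, ← Finset.mul_sum]
    rw [← two_mul_energy ψ, four]
    have hsym : ∑ i : Fin m, ∑ j : Fin m, ∑ k : Fin m,
        (if i ≠ j ∧ k ≠ i ∧ k ≠ j then cross ψ j i i k else 0) = three ψ := by
      rw [three, Finset.sum_comm]
      refine Finset.sum_congr rfl fun i _ => Finset.sum_congr rfl fun j _ =>
        Finset.sum_congr rfl fun k _ => ?_
      simp only [ne_comm (a := j) (b := i), and_comm (a := k ≠ j) (b := k ≠ i)]
    have hthree : ∑ i : Fin m, ∑ j : Fin m, ∑ k : Fin m,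
        (if i ≠ j ∧ k ≠ i ∧ k ≠ j then 2 * cross ψ i j j k + 2 * cross ψ j i i k else 0)
          = 4 * three ψ := by
      have : ∀ i j k : Fin m,
          (if i ≠ j ∧ k ≠ i ∧ k ≠ j then 2 * cross ψ i j j k + 2 * cross ψ j i i k else 0)
          = 2 * (if i ≠ j ∧ k ≠ i ∧ k ≠ j then cross ψ i j j k else 0)
            + 2 * (if i ≠ j ∧ k ≠ i ∧ k ≠ j then cross ψ j i i k else 0) := fun i j k => by
        split_ifs <;> ring
      simp only [this, Finset.sum_add_distrib, ← Finset.mul_sum, hsym]
      rw [← three]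
      ring
    rw [hthree]
    ring
  linarith

end Vale.Agent.P359.Kernel
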