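import Mathlib

/-!
# P359: from `H² ≥ δ H` to the gap above the kernel
-/

open scoped InnerProductSpace

namespace Vale.Agent.P359.Kernel

/-- For symmetric positive `A` with `δ ⟪x, A x⟫ ≤ ⟪A x, A x⟫`, the quadratic form is at least
`δ ‖x‖²` on the orthogonal complement of the kernel. -/
theorem gap_of_sq {E : Type*} [NormedAddCommGroup E] [InnerProductSpace ℝ E] [FiniteDimensional ℝ E]
    {A : E →ₗ[ℝ] E} (hA : A.IsSymmetric) {δ : ℝ} (hpos : ∀ x, 0 ≤ ⟪x, A x⟫_ℝ)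
    (hsq : ∀ x, δ * ⟪x, A x⟫_ℝ ≤ ⟪A x, A x⟫_ℝ) {x : E} (hx : ∀ z, A z = 0 → ⟪z, x⟫_ℝ = 0) :
    δ * ‖x‖ ^ 2 ≤ ⟪x, A x⟫_ℝ := by
  set b := hA.eigenvectorBasis (rfl : Module.finrank ℝ E = _)
  set μ := hA.eigenvalues (rfl : Module.finrank ℝ E = _)
  have hb : ∀ i, A (b i) = μ i • b i := fun i => by
    exact_mod_cast hA.apply_eigenvectorBasis rfl i
  have hn : ‖x‖ ^ 2 = ∑ i, ⟪b i, x⟫_ℝ ^ 2 := by
    rw [← b.sum_sq_norm_inner_right x]
    simp [sq_abs]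
  have hq : ⟪x, A x⟫_ℝ = ∑ i, μ i * ⟪b i, x⟫_ℝ ^ 2 := by
    rw [← b.sum_inner_mul_inner x (A x)]
    refine Finset.sum_congr rfl fun i _ => ?_
    rw [← hA (b i) x, hb, real_inner_smul_left, real_inner_comm x (b i)]
    ring
  rw [hn, hq, Finset.mul_sum]
  refine Finset.sum_le_sum fun i _ => ?_
  by_cases h0 : μ i = 0
  · rw [hx (b i) (by rw [hb, h0, zero_smul])]
    simp
  refine mul_le_mul_of_nonneg_right ?_ (sq_nonneg _)
  have hp : 0 ≤ μ i := by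
    have h1 := hpos (b i)
    simpa [hb, real_inner_smul_right, real_inner_self_eq_norm_sq, b.orthonormal.1 i] using h1
  have h2 := hsq (b i)
  simp [hb, real_inner_smul_right,
    b.orthonormal.1 i, norm_smul, sq_abs, Real.norm_eq_abs] at h2
  exact le_of_mul_le_mul_right (by nlinarith : δ * μ i ≤ μ i * μ i) (lt_of_le_of_ne hp (Ne.symm h0))

end Vale.Agent.P359.Kernel
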