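import Vale.Agent.P359.Kernel
import Vale.Agent.P359.Kernel.Spectral

/-!
# P359: the Hamiltonian as an operator, and the gap from `δ ⟨ψ, H ψ⟩ ≤ ‖H ψ‖²`
-/

noncomputable section

open Function Equiv

namespace Vale.Agent.P359.Kernel

open Upper

variable {m Q : ℕ}

/-- The projection of particles `i`, `j` to the pair vectors. -/
def pairProj (i j : Fin m) (ψ : Orbs m Q → ℝ) (y : Orbs m Q) : ℝ :=
  ∑ s ∈ Finset.range (2 * Q + 1), amp ψ i j s y * pairVec Q s (y i) (y j) / pairNorm Q s

/-- The Hamiltonian: the sum of the pair projections. -/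
def ham (ψ : Orbs m Q → ℝ) (y : Orbs m Q) : ℝ :=
  ∑ i : Fin m, ∑ j : Fin m, if i < j then pairProj i j ψ y else 0

/-- The bilinear form of `energy`. -/
def form (φ ψ : Orbs m Q → ℝ) : ℝ :=
  ∑ i : Fin m, ∑ j : Fin m, if i < j then
    ∑ s ∈ Finset.range (2 * Q + 1), ∑ x : Orbs m Q,
      (if x i = 0 ∧ x j = 0 then amp φ i j s x * amp ψ i j s x / pairNorm Q s else 0)
  else 0

lemma form_self (ψ : Orbs m Q → ℝ) : form ψ ψ = energy ψ := by
  simp only [form, energy, sq]

lemma form_comm (φ ψ : Orbs m Q → ℝ) : form φ ψ = form ψ φ := by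
  simp only [form, mul_comm (amp φ _ _ _ _)]

lemma pairVec_swap (s : ℕ) (k l : Fin (Q + 1)) : pairVec Q s l k = -pairVec Q s k l := by
  simp only [pairVec, add_comm (l : ℕ) (k : ℕ), mul_comm ((Q.choose (l : ℕ) : ℝ))]
  split_ifs <;> ring

/-- Splitting a sum over configurations at the entries `i`, `j`. -/
lemma sum_fiber {i j : Fin m} (hij : i ≠ j) (F : Orbs m Q → ℝ) :
    ∑ y, F y = ∑ x : Orbs m Q,
      if x i = 0 ∧ x j = 0 then ∑ k, ∑ l, F (update (update x i k) j l) else 0 := by
  rw [← Finset.sum_filter]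
  simp only [← Fintype.sum_prod_type']
  rw [← Finset.sum_product']
  refine Finset.sum_nbij' (fun y => (update (update y i 0) j 0, (y i, y j)))
    (fun p => update (update p.1 i p.2.1) j p.2.2) ?_ ?_ ?_ ?_ ?_
  · intro y _
    simp [update_of_ne hij]
  · intro p _
    simp
  · intro y _
    funext p
    by_cases hpj : p = j
    · subst hpj; simp
    by_cases hpi : p = i
    · subst hpi; simp [update_of_ne hpj]
    · simp [update_of_ne hpj, update_of_ne hpi]
  · rintro ⟨x, k, l⟩ hx
    simp only [Finset.mem_product, Finset.mem_filter, Finset.mem_univ, true_and, and_true] at hx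
    simp only [update_self, update_of_ne hij, Prod.mk.injEq, and_true]
    funext p
    by_cases hpj : p = j
    · subst hpj; simp [hx.2]
    by_cases hpi : p = i
    · subst hpi; simp [update_of_ne hpj, hx.1]
    · simp [update_of_ne hpj, update_of_ne hpi]
  · intro y _
    congr 1
    funext p
    by_cases hpj : p = j
    · subst hpj; simp
    by_cases hpi : p = i
    · subst hpi; simp [update_of_ne hpj]
    · simp [update_of_ne hpj, update_of_ne hpi]

lemma sum_mul_pairProj {i j : Fin m} (hij : i ≠ j) (φ ψ : Orbs m Q → ℝ) :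
    ∑ y, φ y * pairProj i j ψ y = ∑ s ∈ Finset.range (2 * Q + 1), ∑ x : Orbs m Q,
      (if x i = 0 ∧ x j = 0 then amp φ i j s x * amp ψ i j s x / pairNorm Q s else 0) := by
  simp only [pairProj, Finset.mul_sum]
  rw [Finset.sum_comm]
  refine Finset.sum_congr rfl fun s _ => ?_
  rw [sum_fiber hij]
  refine Finset.sum_congr rfl fun x _ => ?_
  split_ifs
  · simp only [amp_update ψ hij, update_self, update_of_ne hij]
    rw [show amp φ i j s x = ∑ k, ∑ l, pairVec Q s k l * φ (update (update x i k) j l) from rfl,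
      Finset.sum_mul, Finset.sum_div]
    refine Finset.sum_congr rfl fun k _ => ?_
    rw [Finset.sum_mul, Finset.sum_div]
    refine Finset.sum_congr rfl fun l _ => ?_
    ring
  · rfl

/-- `⟨φ, H ψ⟩` is the polarised energy. -/
theorem sum_mul_ham (φ ψ : Orbs m Q → ℝ) : ∑ y, φ y * ham ψ y = form φ ψ := by
  simp only [ham, Finset.mul_sum, mul_ite, mul_zero]
  rw [Finset.sum_comm]
  refine Finset.sum_congr rfl fun i _ => ?_
  rw [Finset.sum_comm]
  refine Finset.sum_congr rfl fun j _ => ?_
  split_ifs with h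
  · exact sum_mul_pairProj h.ne φ ψ
  · simp

theorem energy_eq_sum_mul_ham (ψ : Orbs m Q → ℝ) : energy ψ = ∑ y, ψ y * ham ψ y := by
  rw [sum_mul_ham, form_self]

lemma amp_swap {i j : Fin m} (hij : i ≠ j) (ψ : Orbs m Q → ℝ) (s : ℕ) (x : Orbs m Q) :
    amp ψ j i s x = -amp ψ i j s x := by
  unfold amp
  rw [Finset.sum_comm, ← Finset.sum_neg_distrib]
  refine Finset.sum_congr rfl fun k _ => ?_
  rw [← Finset.sum_neg_distrib]
  refine Finset.sum_congr rfl fun l _ => ?_
  rw [pairVec_swap s k l, update_comm hij, neg_mul]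

lemma pairProj_swap (ψ : Orbs m Q → ℝ) (i j : Fin m) (y : Orbs m Q) :
    pairProj j i ψ y = pairProj i j ψ y := by
  rcases eq_or_ne i j with rfl | hij
  · rfl
  refine Finset.sum_congr rfl fun s _ => ?_
  rw [amp_swap hij, pairVec_swap s (y i) (y j), neg_mul_neg]

lemma pairProj_self (ψ : Orbs m Q → ℝ) (i : Fin m) (y : Orbs m Q) : pairProj i i ψ y = 0 := by
  refine Finset.sum_eq_zero fun s _ => ?_
  simp [pairVec]

lemma two_mul_ham (ψ : Orbs m Q → ℝ) (y : Orbs m Q) :
    2 * ham ψ y = ∑ i : Fin m, ∑ j : Fin m, pairProj i j ψ y := by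
  have hge : ham ψ y = ∑ i : Fin m, ∑ j : Fin m, if j < i then pairProj i j ψ y else 0 := by
    rw [ham, Finset.sum_comm]
    simp only [pairProj_swap ψ]
  rw [two_mul]
  nth_rewrite 2 [hge]
  rw [ham, ← Finset.sum_add_distrib]
  refine Finset.sum_congr rfl fun i _ => ?_
  rw [← Finset.sum_add_distrib]
  refine Finset.sum_congr rfl fun j _ => ?_
  rcases lt_trichotomy i j with h | rfl | h
  · simp [h, h.not_gt]
  · simp [pairProj_self]
  · simp [h, h.not_gt]

theorem ham_fermionic {ψ : Orbs m Q → ℝ} (hf : IsFermionic ψ) : IsFermionic (ham ψ) := by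
  intro e y
  have hp : ∀ i j, pairProj i j ψ (y ∘ e) = ((e.sign : ℤ) : ℝ) * pairProj (e i) (e j) ψ y := by
    intro i j
    rw [pairProj, pairProj, Finset.mul_sum]
    refine Finset.sum_congr rfl fun s _ => ?_
    have ha : amp ψ i j s (y ∘ e) = ((e.sign : ℤ) : ℝ) * amp ψ (e i) (e j) s y := by
      unfold amp
      rw [Finset.mul_sum]
      refine Finset.sum_congr rfl fun k _ => ?_
      rw [Finset.mul_sum]
      refine Finset.sum_congr rfl fun l _ => ?_
      have : update (update (y ∘ e) i k) j l = update (update y (e i) k) (e j) l ∘ e := by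
        rw [update_comp_eq_of_injective _ e.injective, update_comp_eq_of_injective _ e.injective]
      rw [this, hf]
      ring
    rw [ha]
    simp only [comp_apply]
    ring
  have h2 : 2 * ham ψ (y ∘ e) = 2 * (((e.sign : ℤ) : ℝ) * ham ψ y) := by
    rw [mul_left_comm, two_mul_ham, two_mul_ham]
    simp only [hp, ← Finset.mul_sum]
    congr 1
    rw [Equiv.sum_comp e fun i => ∑ j, pairProj i (e j) ψ y]
    exact Finset.sum_congr rfl fun i _ => Equiv.sum_comp e fun j => pairProj i j ψ y
  linarith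

lemma amp_add_smul (ψ χ : Orbs m Q → ℝ) (c : ℝ) (i j : Fin m) (t : ℕ) (x : Orbs m Q) :
    amp (ψ + c • χ) i j t x = amp ψ i j t x + c * amp χ i j t x := by
  simp only [amp, Pi.add_apply, Pi.smul_apply, smul_eq_mul, mul_add, Finset.sum_add_distrib,
    mul_left_comm _ c, ← Finset.mul_sum]

lemma form_add_smul (φ ψ χ : Orbs m Q → ℝ) (c : ℝ) :
    form φ (ψ + c • χ) = form φ ψ + c * form φ χ := by
  simp only [form, amp_add_smul, Finset.mul_sum, ← Finset.sum_add_distrib]
  refine Finset.sum_congr rfl fun i _ => Finset.sum_congr rfl fun j _ => ?_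
  split_ifs
  · simp only [Finset.mul_sum, ← Finset.sum_add_distrib]
    refine Finset.sum_congr rfl fun t _ => Finset.sum_congr rfl fun x _ => ?_
    split_ifs <;> ring
  · simp

lemma ham_add_smul (ψ χ : Orbs m Q → ℝ) (c : ℝ) : ham (ψ + c • χ) = ham ψ + c • ham χ := by
  classical
  funext z
  have h : ∀ f : Orbs m Q → ℝ, ∑ y, (Pi.single z (1 : ℝ) : Orbs m Q → ℝ) y * f y = f z := fun f => by
    simp [Pi.single_apply]
  rw [← h (ham (ψ + c • χ)), sum_mul_ham, form_add_smul, ← sum_mul_ham, ← sum_mul_ham, h, h]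
  rfl

/-- Fermionic states as a subspace of the Euclidean space of configurations. -/
def fermions (m Q : ℕ) : Submodule ℝ (EuclideanSpace ℝ (Orbs m Q)) where
  carrier := {v | IsFermionic v.ofLp}
  add_mem' := fun {u v} hu hv e x => by
    simp only [WithLp.ofLp_add, Pi.add_apply, hu e x, hv e x]; ring
  zero_mem' := fun e x => by simp
  smul_mem' := fun c v hv e x => by
    simp only [WithLp.ofLp_smul, Pi.smul_apply, smul_eq_mul, hv e x]; ring

/-- The Hamiltonian on fermionic states. -/
def hamOp (m Q : ℕ) : fermions m Q →ₗ[ℝ] fermions m Q where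
  toFun v := ⟨WithLp.toLp 2 (ham v.1.ofLp), ham_fermionic v.2⟩
  map_add' u v := by
    apply Subtype.ext
    have h := ham_add_smul u.1.ofLp v.1.ofLp 1
    rw [one_smul, one_smul] at h
    simp [h]
  map_smul' c v := by
    apply Subtype.ext
    have h := ham_add_smul (0 : Orbs m Q → ℝ) v.1.ofLp c
    have h0 : ham (0 : Orbs m Q → ℝ) = 0 := by
      funext y; simp [ham, pairProj, amp]
    rw [h0, zero_add, zero_add] at h
    simp [h]

/-- **The gap** on the orthogonal complement of the Laughlin state, from `δ H ≤ H²`. -/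
theorem gap_of_ham_sq {δ : ℝ}
    (hsq : ∀ ψ : Orbs m (3 * (m - 1)) → ℝ, IsFermionic ψ → δ * energy ψ ≤ normSq (ham ψ))
    {ψ : Orbs m (3 * (m - 1)) → ℝ} (hf : IsFermionic ψ)
    (hL : ∑ y, laughlinState m y * ψ y = 0) : δ * normSq ψ ≤ energy ψ := by
  set A := hamOp m (3 * (m - 1))
  have hin : ∀ u v : fermions m (3 * (m - 1)), inner ℝ u v = ∑ y, u.1.ofLp y * v.1.ofLp y :=
    fun u v => by
      rw [Submodule.coe_inner, PiLp.inner_apply]
      exact Finset.sum_congr rfl fun y _ => by simp [mul_comm]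
  have hA : ∀ u v, inner ℝ u (A v) = form u.1.ofLp v.1.ofLp := fun u v => by
    rw [hin]; exact sum_mul_ham _ _
  have h := gap_of_sq (A := A) (δ := δ)
    (fun u v => by rw [real_inner_comm, hA, hA, form_comm])
    (fun u => by rw [hA, form_self]; exact energy_nonneg _)
    (fun u => by
      rw [hA, form_self, hin]
      exact (hsq _ u.2).trans (le_of_eq (by simp [normSq, sq, A, hamOp])))
    (x := ⟨WithLp.toLp 2 ψ, hf⟩) fun z hz => ?_
  · rw [hA, form_self] at h
    rw [← real_inner_self_eq_norm_sq, hin] at h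
    simpa [normSq, sq] using h
  · have he : energy z.1.ofLp = 0 := by
      rw [← form_self, ← hA, hz, inner_zero_right]
    obtain ⟨c, hc⟩ := kernel_eq z.2 he
    rw [hin, hc]
    simp only [mul_assoc, ← Finset.mul_sum, hL, mul_zero]

end Vale.Agent.P359.Kernel
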